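import Mathlib
import Vale.Agent.Lib.P065.Defs
import Vale.Agent.Lib.P065.Vertex
import Vale.Agent.Lib.P065.Count
import Vale.Agent.Lib.P065.Perturb

/-!
# Halving lines of point sets covered by few convex-position sets (helper19)

If a planar point set `P` in general position is partitioned into `κ` classes, each in strictly
convex position, then `2 * h(P) + |P| ≤ 2 * κ * |P|`.  The proof uses the vertex lemma of
`Vertex.lean`, a move lemma for cuts and a peeling induction.
-/

namespace Vale.Agent.Lib.P065.H19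

open scoped Classical
open Finset
open Vale.Agent.Lib.P065

/-- Number of halving neighbours of `b` inside `T`. -/
noncomputable def dg (P : Finset (ℝ × ℝ)) (b : ℝ × ℝ) (T : Finset (ℝ × ℝ)) : ℕ :=
  (T.filter (fun q => IsHalving P b q)).card

/-- Number of ordered halving pairs `(p, q)` with `p ∈ X`, `q ∈ Y`. -/
noncomputable def ee (P X Y : Finset (ℝ × ℝ)) : ℕ := ∑ p ∈ X, dg P p Y

theorem dg_mono (P : Finset (ℝ × ℝ)) (b : ℝ × ℝ) {T T' : Finset (ℝ × ℝ)} (h : T ⊆ T') :
    dg P b T ≤ dg P b T' :=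
  Finset.card_le_card (Finset.filter_subset_filter _ h)

theorem dg_union (P : Finset (ℝ × ℝ)) (b : ℝ × ℝ) {T T' : Finset (ℝ × ℝ)} (h : Disjoint T T') :
    dg P b (T ∪ T') = dg P b T + dg P b T' := by
  unfold dg
  rw [Finset.filter_union, Finset.card_union_of_disjoint (Finset.disjoint_filter_filter h)]

theorem ee_mono_left (P : Finset (ℝ × ℝ)) {X X' : Finset (ℝ × ℝ)} (Y : Finset (ℝ × ℝ))
    (h : X ⊆ X') : ee P X Y ≤ ee P X' Y :=
  Finset.sum_le_sum_of_subset h

theorem ee_union_right (P X : Finset (ℝ × ℝ)) {Y Y' : Finset (ℝ × ℝ)} (h : Disjoint Y Y') :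
    ee P X (Y ∪ Y') = ee P X Y + ee P X Y' := by
  unfold ee
  rw [← Finset.sum_add_distrib]
  exact Finset.sum_congr rfl (fun p _ => dg_union P p h)

theorem ee_union_left (P : Finset (ℝ × ℝ)) {X X' : Finset (ℝ × ℝ)} (Y : Finset (ℝ × ℝ))
    (h : Disjoint X X') : ee P (X ∪ X') Y = ee P X Y + ee P X' Y := by
  unfold ee
  exact Finset.sum_union h

theorem ee_comm (P X Y : Finset (ℝ × ℝ)) : ee P X Y = ee P Y X := by
  unfold ee dg
  simp only [Finset.card_filter]
  rw [Finset.sum_comm]
  refine Finset.sum_congr rfl (fun q _ => Finset.sum_congr rfl (fun p _ => ?_))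
  by_cases h : IsHalving P p q
  · rw [if_pos h, if_pos (isHalving_symm P p q h)]
  · rw [if_neg h, if_neg (fun h' => h (isHalving_symm P q p h'))]

theorem ee_singleton_left (P : Finset (ℝ × ℝ)) (b : ℝ × ℝ) (Y : Finset (ℝ × ℝ)) :
    ee P {b} Y = dg P b Y := by
  unfold ee
  exact Finset.sum_singleton _ _

/-- Corollary of the vertex lemma: if `D ⊆ P` lies strictly on one side of a line through `b`,
then `b` has at most one more halving neighbour inside `D` than outside. -/
theorem vertex_D (P : Finset (ℝ × ℝ)) (hP : GenPos P) (b : ℝ × ℝ) (hb : b ∈ P)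
    (D : Finset (ℝ × ℝ)) (hDP : D ⊆ P)
    (hD : ∃ v : ℝ × ℝ, ∀ q ∈ D, q ≠ b → 0 < xc b v q) :
    dg P b D ≤ dg P b (P \ D) + 1 := by
  obtain ⟨v, hv⟩ := hD
  obtain ⟨v', hgen, hpos⟩ := perturb P b v (fun q => q ∈ D) (fun q _ hqb hd => hv q hd hqb)
  have h1 : D.filter (fun q => IsHalving P b q) ⊆
      P.filter (fun q => IsHalving P b q ∧ 0 < xc b v' q) := by
    intro q hq
    obtain ⟨hqD, hqH⟩ := Finset.mem_filter.1 hq
    exact Finset.mem_filter.2 ⟨hDP hqD, hqH, hpos q (hDP hqD) (Ne.symm hqH.1) hqD⟩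
  have h2 : P.filter (fun q => IsHalving P b q ∧ xc b v' q < 0) ⊆
      (P \ D).filter (fun q => IsHalving P b q) := by
    intro q hq
    obtain ⟨hqP, hqH, hqx⟩ := Finset.mem_filter.1 hq
    refine Finset.mem_filter.2 ⟨Finset.mem_sdiff.2 ⟨hqP, fun hqD => ?_⟩, hqH⟩
    exact lt_asymm hqx (hpos q hqP (Ne.symm hqH.1) hqD)
  unfold dg
  calc (D.filter (fun q => IsHalving P b q)).card
      ≤ _ := Finset.card_le_card h1
    _ ≤ _ := vertex P hP b v' hb hgen
    _ ≤ _ := Nat.add_le_add_right (Finset.card_le_card h2) 1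

/-- The number of ordered halving pairs from `S` to its complement in `P`. -/
noncomputable def cut (P S : Finset (ℝ × ℝ)) : ℕ := ee P S (P \ S)

/-- Move lemma: deleting from `S` a point that is strictly extreme in `S` raises the cut by at
most one. -/
theorem cut_erase (P : Finset (ℝ × ℝ)) (hP : GenPos P) (S : Finset (ℝ × ℝ)) (hS : S ⊆ P)
    (b : ℝ × ℝ) (hb : b ∈ S) (hext : ∃ v : ℝ × ℝ, ∀ q ∈ S, q ≠ b → 0 < xc b v q) :
    cut P (S.erase b) ≤ cut P S + 1 := by
  have hbP : b ∈ P := hS hb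
  have hS' : S.erase b ⊆ P := (Finset.erase_subset b S).trans hS
  -- the complement of `S.erase b`
  have hcompl : P \ S.erase b = (P \ S) ∪ {b} := by
    ext q
    simp only [Finset.mem_sdiff, Finset.mem_erase, Finset.mem_union, Finset.mem_singleton]
    constructor
    · rintro ⟨hq, hn⟩
      by_cases hqb : q = b
      · exact Or.inr hqb
      · exact Or.inl ⟨hq, fun hqS => hn ⟨hqb, hqS⟩⟩
    · rintro (⟨hq, hn⟩ | rfl)
      · exact ⟨hq, fun h => hn h.2⟩
      · exact ⟨hbP, fun h => h.1 rfl⟩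
  have hdisj : Disjoint (P \ S) ({b} : Finset (ℝ × ℝ)) := by
    rw [Finset.disjoint_singleton_right]
    intro h
    exact (Finset.mem_sdiff.1 h).2 hb
  have hSeq : S = S.erase b ∪ {b} := by
    ext q
    simp only [Finset.mem_erase, Finset.mem_union, Finset.mem_singleton]
    constructor
    · intro hq
      by_cases hqb : q = b
      · exact Or.inr hqb
      · exact Or.inl ⟨hqb, hq⟩
    · rintro (⟨_, hq⟩ | rfl)
      · exact hq
      · exact hb
  have hdisj2 : Disjoint (S.erase b) ({b} : Finset (ℝ × ℝ)) := by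
    rw [Finset.disjoint_singleton_right]
    exact Finset.notMem_erase b S
  have e1 : cut P (S.erase b) = ee P (S.erase b) (P \ S) + dg P b (S.erase b) := by
    unfold cut
    rw [hcompl, ee_union_right P _ hdisj, ee_comm P (S.erase b) {b}, ee_singleton_left]
  have e2 : cut P S = ee P (S.erase b) (P \ S) + dg P b (P \ S) := by
    unfold cut
    have h0 : ee P S (P \ S) = ee P (S.erase b ∪ {b}) (P \ S) := by rw [← hSeq]
    rw [h0, ee_union_left P _ hdisj2, ee_singleton_left]
  have hv : dg P b (S.erase b) ≤ dg P b (P \ S.erase b) + 1 := by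
    refine vertex_D P hP b hbP (S.erase b) hS' ?_
    obtain ⟨v, hv⟩ := hext
    exact ⟨v, fun q hq hqb => hv q (Finset.mem_of_mem_erase hq) hqb⟩
  have hle : dg P b (P \ S.erase b) ≤ dg P b (P \ S) := by
    unfold dg
    refine Finset.card_le_card ?_
    intro q hq
    obtain ⟨hq1, hqH⟩ := Finset.mem_filter.1 hq
    obtain ⟨hqP, hqn⟩ := Finset.mem_sdiff.1 hq1
    refine Finset.mem_filter.2 ⟨Finset.mem_sdiff.2 ⟨hqP, fun hqS => hqn ?_⟩, hqH⟩
    exact Finset.mem_erase.2 ⟨Ne.symm hqH.1, hqS⟩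
  omega

/-- Extreme point lemma: if all points of `C` outside `B'` lie strictly beyond the line through
`b0 ∈ B'` with normal `v0 ≠ 0`, then some point of `B'` is strictly extreme in `C`. -/
theorem exists_ext (C B' : Finset (ℝ × ℝ)) (hB : B' ⊆ C) (b0 : ℝ × ℝ) (hb0 : b0 ∈ B')
    (v0 : ℝ × ℝ) (hn : 0 < v0.1 ^ 2 + v0.2 ^ 2)
    (hv0 : ∀ q ∈ C, q ∉ B' → 0 < xc b0 v0 q) :
    ∃ b ∈ B', ∃ v : ℝ × ℝ, ∀ q ∈ C, q ≠ b → 0 < xc b v q := by
  obtain ⟨f, hf⟩ : ∃ f : ℝ × ℝ → ℝ, f = fun q => v0.1 * q.1 + v0.2 * q.2 := ⟨_, rfl⟩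
  obtain ⟨g, hg⟩ : ∃ g : ℝ × ℝ → ℝ, g = fun q => -v0.2 * q.1 + v0.1 * q.2 := ⟨_, rfl⟩
  have hb0C : b0 ∈ C := hB hb0
  obtain ⟨b1, hb1C, hb1min⟩ := Finset.exists_min_image C f ⟨b0, hb0C⟩
  have hMne : (C.filter (fun q => f q = f b1)).Nonempty :=
    ⟨b1, Finset.mem_filter.2 ⟨hb1C, rfl⟩⟩
  obtain ⟨b, hbM, hbmin⟩ := Finset.exists_min_image (C.filter (fun q => f q = f b1)) g hMne
  obtain ⟨hbC, hbf⟩ := Finset.mem_filter.1 hbM
  have hxc : ∀ p q : ℝ × ℝ, xc p v0 q = f q - f p := by
    intro p q; rw [hf]; unfold xc; ring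
  have hyc : ∀ p q : ℝ × ℝ, yc p v0 q = g q - g p := by
    intro p q; rw [hg]; unfold yc; ring
  have hbB : b ∈ B' := by
    by_contra hc
    have h1 := hv0 b hbC hc
    have h3 := hb1min b0 hb0C
    rw [hxc, hbf] at h1
    linarith
  refine ⟨b, hbB, ?_⟩
  have hkey : ∀ q ∈ C, ∀ᶠ t in nhdsWithin (0 : ℝ) (Set.Ioi 0), q ≠ b →
      0 < xc b (v0.1 - t * v0.2, v0.2 + t * v0.1) q := by
    intro q hq
    by_cases hqb : q = b
    · exact Filter.Eventually.of_forall (fun t h => absurd hqb h)
    · have hexp : ∀ t : ℝ, xc b (v0.1 - t * v0.2, v0.2 + t * v0.1) q =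
          xc b v0 q + t * yc b v0 q := by
        intro t; unfold xc yc; ring
      have hx0 : 0 ≤ xc b v0 q := by
        rw [hxc, hbf]; linarith [hb1min q hq]
      rcases hx0.lt_or_eq with hpos | hzero
      · have hcont : Continuous (fun t : ℝ => xc b v0 q + t * yc b v0 q) := by fun_prop
        have hev : ∀ᶠ t in nhds (0 : ℝ), 0 < xc b v0 q + t * yc b v0 q :=
          (isOpen_lt continuous_const hcont).mem_nhds (by simpa using hpos)
        filter_upwards [nhdsWithin_le_nhds hev] with t ht _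
        rw [hexp]; exact ht
      · have hqM : q ∈ C.filter (fun q => f q = f b1) := by
          refine Finset.mem_filter.2 ⟨hq, ?_⟩
          have h1 := hxc b q
          rw [← hzero] at h1
          linarith
        have hy0 : 0 ≤ yc b v0 q := by rw [hyc]; linarith [hbmin q hqM]
        have hyne : yc b v0 q ≠ 0 := by
          intro hy
          apply hqb
          have hx : xc b v0 q = 0 := hzero.symm
          unfold xc at hx
          unfold yc at hy
          have h1 : (v0.1 ^ 2 + v0.2 ^ 2) * (q.1 - b.1) = 0 := by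
            linear_combination v0.1 * hx - v0.2 * hy
          have h2 : (v0.1 ^ 2 + v0.2 ^ 2) * (q.2 - b.2) = 0 := by
            linear_combination v0.2 * hx + v0.1 * hy
          have h3 : q.1 - b.1 = 0 := by
            rcases mul_eq_zero.1 h1 with h | h
            · exact absurd h (ne_of_gt hn)
            · exact h
          have h4 : q.2 - b.2 = 0 := by
            rcases mul_eq_zero.1 h2 with h | h
            · exact absurd h (ne_of_gt hn)
            · exact h
          exact Prod.ext (sub_eq_zero.1 h3) (sub_eq_zero.1 h4)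
        have hypos : 0 < yc b v0 q := lt_of_le_of_ne hy0 (Ne.symm hyne)
        filter_upwards [self_mem_nhdsWithin] with t ht _
        rw [hexp, ← hzero]
        have h5 : 0 < t * yc b v0 q := mul_pos ht hypos
        linarith
  have hall := (Filter.eventually_all_finset C).2 hkey
  obtain ⟨t, ht⟩ := hall.exists
  exact ⟨(v0.1 - t * v0.2, v0.2 + t * v0.1), fun q hq hqb => ht q hq hqb⟩

/-- The points of `P \ A` that are cut off from `A` by one of the chosen tangent lines. -/
noncomputable def outS (P A : Finset (ℝ × ℝ)) (vA : ℝ × ℝ → ℝ × ℝ) : Finset (ℝ × ℝ) :=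
  (P \ A).filter (fun q => ∃ a ∈ A, xc a (vA a) q < 0)

theorem xc_shift (a b v q : ℝ × ℝ) : xc b v q = xc a v q - xc a v b := by unfold xc; ring

theorem cut_self (P : Finset (ℝ × ℝ)) : cut P P = 0 := by
  unfold cut ee dg
  simp

/-- A class `A ⊆ P` in strictly convex position (with generic tangent normals `vA a`) is
incident to few ordered halving pairs: `e(A, P) + |A| ≤ 2 |P|`. -/
theorem class_bound_gen (P : Finset (ℝ × ℝ)) (hP : GenPos P) (A : Finset (ℝ × ℝ)) (hA : A ⊆ P)
    (vA : ℝ × ℝ → ℝ × ℝ)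
    (hgen : ∀ a ∈ A, ∀ q ∈ P, q ≠ a → xc a (vA a) q ≠ 0)
    (hpos : ∀ a ∈ A, ∀ q ∈ A, q ≠ a → 0 < xc a (vA a) q) :
    ee P A P + A.card ≤ 2 * P.card := by
  obtain ⟨O, hO⟩ : ∃ O : Finset (ℝ × ℝ), O = outS P A vA := ⟨_, rfl⟩
  obtain ⟨K, hK⟩ : ∃ K : Finset (ℝ × ℝ), K = P \ O := ⟨_, rfl⟩
  have hOA : O ⊆ P \ A := by rw [hO]; exact Finset.filter_subset _ _
  have hOP : O ⊆ P := hOA.trans Finset.sdiff_subset
  have hKP : K ⊆ P := by rw [hK]; exact Finset.sdiff_subset
  have hAK : A ⊆ K := by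
    intro a ha
    rw [hK]
    refine Finset.mem_sdiff.2 ⟨hA ha, fun h => ?_⟩
    exact (Finset.mem_sdiff.1 (hOA h)).2 ha
  have hKpos : ∀ a ∈ A, ∀ q ∈ K, q ≠ a → 0 < xc a (vA a) q := by
    intro a ha q hq hqa
    rw [hK] at hq
    obtain ⟨hqP, hqO⟩ := Finset.mem_sdiff.1 hq
    by_cases hqA : q ∈ A
    · exact hpos a ha q hqA hqa
    · have hne := hgen a ha q hqP hqa
      rcases lt_or_gt_of_ne hne with hlt | hgt
      · exfalso
        apply hqO
        rw [hO]
        exact Finset.mem_filter.2 ⟨Finset.mem_sdiff.2 ⟨hqP, hqA⟩, a, ha, hlt⟩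
      · exact hgt
  have hKO : K ∪ O = P := by rw [hK]; exact Finset.sdiff_union_of_subset hOP
  have hPK : P \ K = O := by rw [hK]; exact Finset.sdiff_sdiff_eq_self hOP
  have hdKO : Disjoint K O := by rw [hK]; exact Finset.sdiff_disjoint
  -- (I) peeling the outside points
  have hpeel : ∀ j : ℕ, j ≤ O.card → ∃ B' : Finset (ℝ × ℝ), B' ⊆ O ∧ B'.card + j = O.card ∧
      cut P (K ∪ B') ≤ j := by
    intro j
    induction j with
    | zero =>
      intro _
      refine ⟨O, Finset.Subset.refl _, by simp, ?_⟩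
      rw [hKO, cut_self]
    | succ j ih =>
      intro hj
      obtain ⟨B', hB'O, hcard, hcut⟩ := ih (by omega)
      have hB'ne : B'.Nonempty := by
        rw [← Finset.card_pos]; omega
      obtain ⟨b0, hb0⟩ := hB'ne
      have hb0O : b0 ∈ outS P A vA := by rw [← hO]; exact hB'O hb0
      obtain ⟨hb0PA, a0, ha0, hlt⟩ := Finset.mem_filter.1 hb0O
      have hn : 0 < (vA a0).1 ^ 2 + (vA a0).2 ^ 2 := vnorm_pos a0 (vA a0) b0 (ne_of_lt hlt)
      have hv0 : ∀ q ∈ K ∪ B', q ∉ B' → 0 < xc b0 (vA a0) q := by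
        intro q hq hqB
        have hqK : q ∈ K := by
          rcases Finset.mem_union.1 hq with h | h
          · exact h
          · exact absurd h hqB
        have h0 : 0 ≤ xc a0 (vA a0) q := by
          by_cases hqa : q = a0
          · rw [hqa]; unfold xc; simp
          · exact (hKpos a0 ha0 q hqK hqa).le
        rw [xc_shift a0 b0 (vA a0) q]
        linarith
      obtain ⟨b, hbB, v, hv⟩ := exists_ext (K ∪ B') B' Finset.subset_union_right b0 hb0
        (vA a0) hn hv0
      have hCP : K ∪ B' ⊆ P := Finset.union_subset hKP (hB'O.trans hOP)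
      have hmove := cut_erase P hP (K ∪ B') hCP b (Finset.mem_union_right _ hbB) ⟨v, hv⟩
      have hbK : b ∉ K := by
        intro h
        rw [hK] at h
        exact (Finset.mem_sdiff.1 h).2 (hB'O hbB)
      have herase : (K ∪ B').erase b = K ∪ B'.erase b := by
        rw [Finset.erase_union_distrib, Finset.erase_eq_of_notMem hbK]
      refine ⟨B'.erase b, (Finset.erase_subset _ _).trans hB'O, ?_, ?_⟩
      · rw [Finset.card_erase_of_mem hbB]
        have h6 : 0 < B'.card := Finset.card_pos.2 ⟨b, hbB⟩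
        omega
      · rw [← herase]; omega
  have hI : ee P K O ≤ O.card := by
    obtain ⟨B', hB'O, hcard, hcut⟩ := hpeel O.card le_rfl
    have hB'e : B' = ∅ := Finset.card_eq_zero.1 (by omega)
    rw [hB'e, Finset.union_empty] at hcut
    unfold cut at hcut
    rw [hPK] at hcut
    exact hcut
  -- (II) the class itself
  have hII : ∀ a ∈ A, dg P a K ≤ dg P a O + 1 := by
    intro a ha
    have h1 := vertex_D P hP a (hA ha) (K.erase a) ((Finset.erase_subset _ _).trans hKP)
      ⟨vA a, fun q hq hqa => hKpos a ha q (Finset.mem_of_mem_erase hq) hqa⟩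
    have h2 : dg P a K ≤ dg P a (K.erase a) := by
      unfold dg
      refine Finset.card_le_card ?_
      intro q hq
      obtain ⟨hqK, hqH⟩ := Finset.mem_filter.1 hq
      exact Finset.mem_filter.2 ⟨Finset.mem_erase.2 ⟨Ne.symm hqH.1, hqK⟩, hqH⟩
    have h3 : dg P a (P \ K.erase a) ≤ dg P a O := by
      unfold dg
      refine Finset.card_le_card ?_
      intro q hq
      obtain ⟨hq1, hqH⟩ := Finset.mem_filter.1 hq
      obtain ⟨hqP, hqn⟩ := Finset.mem_sdiff.1 hq1
      refine Finset.mem_filter.2 ⟨?_, hqH⟩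
      by_contra hqO
      apply hqn
      refine Finset.mem_erase.2 ⟨Ne.symm hqH.1, ?_⟩
      rw [hK]
      exact Finset.mem_sdiff.2 ⟨hqP, hqO⟩
    omega
  have hIIsum : ee P A K ≤ ee P A O + A.card := by
    unfold ee
    calc ∑ a ∈ A, dg P a K ≤ ∑ a ∈ A, (dg P a O + 1) := Finset.sum_le_sum hII
      _ = ∑ a ∈ A, dg P a O + A.card := by rw [Finset.sum_add_distrib]; simp
  -- (III)
  have hsplit : ee P A P = ee P A K + ee P A O := by
    have h0 : ee P A P = ee P A (K ∪ O) := by rw [hKO]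
    rw [h0, ee_union_right P A hdKO]
  have hle1 : ee P A O ≤ ee P K O := ee_mono_left P O hAK
  have hOcard : O.card + A.card ≤ P.card := by
    have h7 := Finset.card_le_card hOA
    have h8 : (P \ A).card + A.card = P.card := Finset.card_sdiff_add_card_eq_card hA
    omega
  omega

/-- **Convex cover bound.** If the points of `P` (no three collinear) are coloured with `κ`
colours so that every colour class is in strictly convex position, then
`2 * h(P) + |P| ≤ 2 * κ * |P|`. -/
theorem cover_bound (P : Finset (ℝ × ℝ)) (hP : GenPos P) (κ : ℕ) (c : ℝ × ℝ → ℕ)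
    (hc : ∀ p ∈ P, c p < κ)
    (hconv : ∀ b ∈ P, ∃ v : ℝ × ℝ, ∀ q ∈ P, q ≠ b → c q = c b → 0 < xc b v q) :
    2 * (halvingLines P).card + P.card ≤ 2 * κ * P.card := by
  have hclass : ∀ i ∈ Finset.range κ,
      ee P (P.filter (fun p => c p = i)) P + (P.filter (fun p => c p = i)).card ≤
        2 * P.card := by
    intro i _
    have hA : P.filter (fun p => c p = i) ⊆ P := Finset.filter_subset _ _
    have hex : ∀ a ∈ P.filter (fun p => c p = i), ∃ v' : ℝ × ℝ,
        (∀ q ∈ P, q ≠ a → xc a v' q ≠ 0) ∧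
        (∀ q ∈ P, q ≠ a → q ∈ P.filter (fun p => c p = i) → 0 < xc a v' q) := by
      intro a ha
      obtain ⟨haP, hai⟩ := Finset.mem_filter.1 ha
      obtain ⟨v, hv⟩ := hconv a haP
      exact perturb P a v (fun q => q ∈ P.filter (fun p => c p = i))
        (fun q hq hqa hqA => hv q hq hqa (by rw [(Finset.mem_filter.1 hqA).2, hai]))
    choose! vA hvA using hex
    exact class_bound_gen P hP _ hA vA (fun a ha => (hvA a ha).1)
      (fun a ha q hq hqa => (hvA a ha).2 q (hA hq) hqa hq)
  have hsum := Finset.sum_le_sum hclass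
  rw [Finset.sum_add_distrib] at hsum
  have h1 : ∑ i ∈ Finset.range κ, ee P (P.filter (fun p => c p = i)) P = ee P P P := by
    unfold ee
    exact Finset.sum_fiberwise_of_maps_to (fun p hp => Finset.mem_range.2 (hc p hp)) _
  have h2 : ∑ i ∈ Finset.range κ, (P.filter (fun p => c p = i)).card = P.card :=
    (Finset.card_eq_sum_card_fiberwise (fun p hp => Finset.mem_range.2 (hc p hp))).symm
  rw [h1, h2] at hsum
  simp only [Finset.sum_const, Finset.card_range, smul_eq_mul] at hsum
  have h3 : (P.offDiag.filter (fun pq => IsHalving P pq.1 pq.2)).card ≤ ee P P P := by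
    have hsub : P.offDiag.filter (fun pq => IsHalving P pq.1 pq.2) ⊆
        (P ×ˢ P).filter (fun pq => IsHalving P pq.1 pq.2) := by
      intro pq hpq
      obtain ⟨h1, h2⟩ := Finset.mem_filter.1 hpq
      obtain ⟨hp, hq, _⟩ := Finset.mem_offDiag.1 h1
      exact Finset.mem_filter.2 ⟨Finset.mem_product.2 ⟨hp, hq⟩, h2⟩
    refine (Finset.card_le_card hsub).trans (le_of_eq ?_)
    unfold ee dg
    rw [Finset.card_filter, Finset.sum_product]
    refine Finset.sum_congr rfl (fun p _ => ?_)
    rw [Finset.card_filter]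
  have h4 := two_mul_card_halvingLines P
  have h5 : κ * (2 * P.card) = 2 * κ * P.card := by ring
  rw [h5] at hsum
  omega

end Vale.Agent.Lib.P065.H19
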