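import Mathlib
import Vale.Agent.Lib.P065.Defs
import Vale.Agent.Lib.P065.Vertex
import Vale.Agent.Lib.P065.Perturb
import Vale.Agent.Lib.P065.helper19.Cover

/-!
# The convex cover bound for an abstract symmetric weight (helper19)

`w : pt → pt → ℕ` is a symmetric weight with `w b b = 0` satisfying the vertex property with
constant `cst`: for every `b ∈ P` and every generic normal `v`, the total weight from `b` to the
points on the positive side is at most the total weight to the negative side plus `cst`.  If `P`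
is coloured with `κ` colours, every class in strictly convex position, then
`∑_{p, q ∈ P} w p q + cst * |P| ≤ 2 * cst * κ * |P|`.
-/

namespace Vale.Agent.Lib.P065.H19W

open scoped Classical
open Finset
open Vale.Agent.Lib.P065

/-- Total weight from `b` to `T`. -/
def dgw (w : ℝ × ℝ → ℝ × ℝ → ℕ) (b : ℝ × ℝ) (T : Finset (ℝ × ℝ)) : ℕ := ∑ q ∈ T, w b q

/-- Total weight of the ordered pairs in `X × Y`. -/
def eew (w : ℝ × ℝ → ℝ × ℝ → ℕ) (X Y : Finset (ℝ × ℝ)) : ℕ := ∑ p ∈ X, dgw w p Y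

theorem dgw_mono (w : ℝ × ℝ → ℝ × ℝ → ℕ) (b : ℝ × ℝ) {T T' : Finset (ℝ × ℝ)} (h : T ⊆ T') :
    dgw w b T ≤ dgw w b T' :=
  Finset.sum_le_sum_of_subset h

theorem dgw_union (w : ℝ × ℝ → ℝ × ℝ → ℕ) (b : ℝ × ℝ) {T T' : Finset (ℝ × ℝ)}
    (h : Disjoint T T') : dgw w b (T ∪ T') = dgw w b T + dgw w b T' :=
  Finset.sum_union h

theorem eew_mono_left (w : ℝ × ℝ → ℝ × ℝ → ℕ) {X X' : Finset (ℝ × ℝ)} (Y : Finset (ℝ × ℝ))
    (h : X ⊆ X') : eew w X Y ≤ eew w X' Y :=
  Finset.sum_le_sum_of_subset h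

theorem eew_union_right (w : ℝ × ℝ → ℝ × ℝ → ℕ) (X : Finset (ℝ × ℝ)) {Y Y' : Finset (ℝ × ℝ)}
    (h : Disjoint Y Y') : eew w X (Y ∪ Y') = eew w X Y + eew w X Y' := by
  unfold eew
  rw [← Finset.sum_add_distrib]
  exact Finset.sum_congr rfl (fun p _ => dgw_union w p h)

theorem eew_union_left (w : ℝ × ℝ → ℝ × ℝ → ℕ) {X X' : Finset (ℝ × ℝ)} (Y : Finset (ℝ × ℝ))
    (h : Disjoint X X') : eew w (X ∪ X') Y = eew w X Y + eew w X' Y :=
  Finset.sum_union h

theorem eew_comm (w : ℝ × ℝ → ℝ × ℝ → ℕ) (hsymm : ∀ p q, w p q = w q p)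
    (X Y : Finset (ℝ × ℝ)) : eew w X Y = eew w Y X := by
  unfold eew dgw
  rw [Finset.sum_comm]
  exact Finset.sum_congr rfl (fun q _ => Finset.sum_congr rfl (fun p _ => hsymm p q))

theorem eew_singleton_left (w : ℝ × ℝ → ℝ × ℝ → ℕ) (b : ℝ × ℝ) (Y : Finset (ℝ × ℝ)) :
    eew w {b} Y = dgw w b Y :=
  Finset.sum_singleton _ _

/-- The vertex property in terms of a set `D ⊆ P` lying strictly on one side of a line through
`b` (the point `b` itself may belong to `D`). -/
theorem vertex_Dw (P : Finset (ℝ × ℝ)) (w : ℝ × ℝ → ℝ × ℝ → ℕ) (cst : ℕ)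
    (hself : ∀ p, w p p = 0)
    (hvert : ∀ b ∈ P, ∀ v : ℝ × ℝ, (∀ q ∈ P, q ≠ b → xc b v q ≠ 0) →
      ∑ q ∈ P.filter (fun q => 0 < xc b v q), w b q ≤
        ∑ q ∈ P.filter (fun q => xc b v q < 0), w b q + cst)
    (b : ℝ × ℝ) (hb : b ∈ P) (D : Finset (ℝ × ℝ)) (hDP : D ⊆ P)
    (hD : ∃ v : ℝ × ℝ, ∀ q ∈ D, q ≠ b → 0 < xc b v q) :
    dgw w b D ≤ dgw w b (P \ D) + cst := by
  obtain ⟨v, hv⟩ := hD
  obtain ⟨v', hgen, hpos⟩ := perturb P b v (fun q => q ∈ D) (fun q _ hqb hd => hv q hd hqb)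
  have h0 : dgw w b D = dgw w b (D.erase b) := by
    unfold dgw
    exact (Finset.sum_erase D (hself b)).symm
  have h1 : D.erase b ⊆ P.filter (fun q => 0 < xc b v' q) := by
    intro q hq
    obtain ⟨hqb, hqD⟩ := Finset.mem_erase.1 hq
    exact Finset.mem_filter.2 ⟨hDP hqD, hpos q (hDP hqD) hqb hqD⟩
  have h2 : P.filter (fun q => xc b v' q < 0) ⊆ P \ D := by
    intro q hq
    obtain ⟨hqP, hqx⟩ := Finset.mem_filter.1 hq
    refine Finset.mem_sdiff.2 ⟨hqP, fun hqD => ?_⟩
    have hqb : q ≠ b := by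
      intro h
      rw [h] at hqx
      unfold xc at hqx
      simp at hqx
    exact lt_asymm hqx (hpos q hqP hqb hqD)
  calc dgw w b D = dgw w b (D.erase b) := h0
    _ ≤ ∑ q ∈ P.filter (fun q => 0 < xc b v' q), w b q := dgw_mono w b h1
    _ ≤ ∑ q ∈ P.filter (fun q => xc b v' q < 0), w b q + cst := hvert b hb v' hgen
    _ ≤ dgw w b (P \ D) + cst := Nat.add_le_add_right (dgw_mono w b h2) cst

/-- Total weight between `S` and its complement in `P`. -/
noncomputable def cutw (w : ℝ × ℝ → ℝ × ℝ → ℕ) (P S : Finset (ℝ × ℝ)) : ℕ := eew w S (P \ S)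

theorem cutw_self (w : ℝ × ℝ → ℝ × ℝ → ℕ) (P : Finset (ℝ × ℝ)) : cutw w P P = 0 := by
  unfold cutw eew dgw
  simp

/-- Move lemma: deleting from `S` a point that is strictly extreme in `S` raises the cut by at
most `cst`. -/
theorem cutw_erase (P : Finset (ℝ × ℝ)) (w : ℝ × ℝ → ℝ × ℝ → ℕ) (cst : ℕ)
    (hsymm : ∀ p q, w p q = w q p) (hself : ∀ p, w p p = 0)
    (hvert : ∀ b ∈ P, ∀ v : ℝ × ℝ, (∀ q ∈ P, q ≠ b → xc b v q ≠ 0) →
      ∑ q ∈ P.filter (fun q => 0 < xc b v q), w b q ≤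
        ∑ q ∈ P.filter (fun q => xc b v q < 0), w b q + cst)
    (S : Finset (ℝ × ℝ)) (hS : S ⊆ P)
    (b : ℝ × ℝ) (hb : b ∈ S) (hext : ∃ v : ℝ × ℝ, ∀ q ∈ S, q ≠ b → 0 < xc b v q) :
    cutw w P (S.erase b) ≤ cutw w P S + cst := by
  have hbP : b ∈ P := hS hb
  have hS' : S.erase b ⊆ P := (Finset.erase_subset b S).trans hS
  have hcompl : P \ S.erase b = (P \ S) ∪ {b} := by
    ext q
    simp only [Finset.mem_sdiff, Finset.mem_erase, Finset.mem_union, Finset.mem_singleton]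
    constructor
    · rintro ⟨hq, hn⟩
      by_cases hqb : q = b
      · exact Or.inr hqb
      · exact Or.inl ⟨hq, fun hqS => hn ⟨hqb, hqS⟩⟩
    · rintro (⟨hq, hn⟩ | rfl)
      · exact ⟨hq, fun h => hn h.2⟩
      · exact ⟨hbP, fun h => h.1 rfl⟩
  have hdisj : Disjoint (P \ S) ({b} : Finset (ℝ × ℝ)) := by
    rw [Finset.disjoint_singleton_right]
    intro h
    exact (Finset.mem_sdiff.1 h).2 hb
  have hSeq : S = S.erase b ∪ {b} := by
    ext q
    simp only [Finset.mem_erase, Finset.mem_union, Finset.mem_singleton]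
    constructor
    · intro hq
      by_cases hqb : q = b
      · exact Or.inr hqb
      · exact Or.inl ⟨hqb, hq⟩
    · rintro (⟨_, hq⟩ | rfl)
      · exact hq
      · exact hb
  have hdisj2 : Disjoint (S.erase b) ({b} : Finset (ℝ × ℝ)) := by
    rw [Finset.disjoint_singleton_right]
    exact Finset.notMem_erase b S
  have e1 : cutw w P (S.erase b) = eew w (S.erase b) (P \ S) + dgw w b (S.erase b) := by
    unfold cutw
    rw [hcompl, eew_union_right w _ hdisj, eew_comm w hsymm (S.erase b) {b},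
      eew_singleton_left]
  have e2 : cutw w P S = eew w (S.erase b) (P \ S) + dgw w b (P \ S) := by
    unfold cutw
    have h0 : eew w S (P \ S) = eew w (S.erase b ∪ {b}) (P \ S) := by rw [← hSeq]
    rw [h0, eew_union_left w _ hdisj2, eew_singleton_left]
  have hv : dgw w b (S.erase b) ≤ dgw w b (P \ S.erase b) + cst := by
    refine vertex_Dw P w cst hself hvert b hbP (S.erase b) hS' ?_
    obtain ⟨v, hv⟩ := hext
    exact ⟨v, fun q hq hqb => hv q (Finset.mem_of_mem_erase hq) hqb⟩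
  have hle : dgw w b (P \ S.erase b) = dgw w b (P \ S) := by
    rw [hcompl, dgw_union w b hdisj]
    unfold dgw
    rw [Finset.sum_singleton, hself b, Nat.add_zero]
  omega

/-- A class `A ⊆ P` in strictly convex position (with generic tangent normals `vA a`):
`e_w(A, P) + cst * |A| ≤ 2 * cst * |P|`. -/
theorem class_bound_w (P : Finset (ℝ × ℝ)) (w : ℝ × ℝ → ℝ × ℝ → ℕ) (cst : ℕ)
    (hsymm : ∀ p q, w p q = w q p) (hself : ∀ p, w p p = 0)
    (hvert : ∀ b ∈ P, ∀ v : ℝ × ℝ, (∀ q ∈ P, q ≠ b → xc b v q ≠ 0) →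
      ∑ q ∈ P.filter (fun q => 0 < xc b v q), w b q ≤
        ∑ q ∈ P.filter (fun q => xc b v q < 0), w b q + cst)
    (A : Finset (ℝ × ℝ)) (hA : A ⊆ P) (vA : ℝ × ℝ → ℝ × ℝ)
    (hgen : ∀ a ∈ A, ∀ q ∈ P, q ≠ a → xc a (vA a) q ≠ 0)
    (hpos : ∀ a ∈ A, ∀ q ∈ A, q ≠ a → 0 < xc a (vA a) q) :
    eew w A P + cst * A.card ≤ 2 * (cst * P.card) := by
  obtain ⟨O, hO⟩ : ∃ O : Finset (ℝ × ℝ), O = H19.outS P A vA := ⟨_, rfl⟩
  obtain ⟨K, hK⟩ : ∃ K : Finset (ℝ × ℝ), K = P \ O := ⟨_, rfl⟩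
  have hOA : O ⊆ P \ A := by rw [hO]; exact Finset.filter_subset _ _
  have hOP : O ⊆ P := hOA.trans Finset.sdiff_subset
  have hKP : K ⊆ P := by rw [hK]; exact Finset.sdiff_subset
  have hAK : A ⊆ K := by
    intro a ha
    rw [hK]
    refine Finset.mem_sdiff.2 ⟨hA ha, fun h => ?_⟩
    exact (Finset.mem_sdiff.1 (hOA h)).2 ha
  have hKpos : ∀ a ∈ A, ∀ q ∈ K, q ≠ a → 0 < xc a (vA a) q := by
    intro a ha q hq hqa
    rw [hK] at hq
    obtain ⟨hqP, hqO⟩ := Finset.mem_sdiff.1 hq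
    by_cases hqA : q ∈ A
    · exact hpos a ha q hqA hqa
    · have hne := hgen a ha q hqP hqa
      rcases lt_or_gt_of_ne hne with hlt | hgt
      · exfalso
        apply hqO
        rw [hO]
        exact Finset.mem_filter.2 ⟨Finset.mem_sdiff.2 ⟨hqP, hqA⟩, a, ha, hlt⟩
      · exact hgt
  have hKO : K ∪ O = P := by rw [hK]; exact Finset.sdiff_union_of_subset hOP
  have hPK : P \ K = O := by rw [hK]; exact Finset.sdiff_sdiff_eq_self hOP
  have hdKO : Disjoint K O := by rw [hK]; exact Finset.sdiff_disjoint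
  -- (I) peeling the outside points
  have hpeel : ∀ j : ℕ, j ≤ O.card → ∃ B' : Finset (ℝ × ℝ), B' ⊆ O ∧ B'.card + j = O.card ∧
      cutw w P (K ∪ B') ≤ cst * j := by
    intro j
    induction j with
    | zero =>
      intro _
      refine ⟨O, Finset.Subset.refl _, by simp, ?_⟩
      rw [hKO, cutw_self]
      exact Nat.zero_le _
    | succ j ih =>
      intro hj
      obtain ⟨B', hB'O, hcard, hcut⟩ := ih (by omega)
      have hB'ne : B'.Nonempty := by
        rw [← Finset.card_pos]; omega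
      obtain ⟨b0, hb0⟩ := hB'ne
      have hb0O : b0 ∈ H19.outS P A vA := by rw [← hO]; exact hB'O hb0
      obtain ⟨hb0PA, a0, ha0, hlt⟩ := Finset.mem_filter.1 hb0O
      have hn : 0 < (vA a0).1 ^ 2 + (vA a0).2 ^ 2 := vnorm_pos a0 (vA a0) b0 (ne_of_lt hlt)
      have hv0 : ∀ q ∈ K ∪ B', q ∉ B' → 0 < xc b0 (vA a0) q := by
        intro q hq hqB
        have hqK : q ∈ K := by
          rcases Finset.mem_union.1 hq with h | h
          · exact h
          · exact absurd h hqB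
        have h0 : 0 ≤ xc a0 (vA a0) q := by
          by_cases hqa : q = a0
          · rw [hqa]; unfold xc; simp
          · exact (hKpos a0 ha0 q hqK hqa).le
        rw [H19.xc_shift a0 b0 (vA a0) q]
        linarith
      obtain ⟨b, hbB, v, hv⟩ := H19.exists_ext (K ∪ B') B' Finset.subset_union_right b0 hb0
        (vA a0) hn hv0
      have hCP : K ∪ B' ⊆ P := Finset.union_subset hKP (hB'O.trans hOP)
      have hmove := cutw_erase P w cst hsymm hself hvert (K ∪ B') hCP b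
        (Finset.mem_union_right _ hbB) ⟨v, hv⟩
      have hbK : b ∉ K := by
        intro h
        rw [hK] at h
        exact (Finset.mem_sdiff.1 h).2 (hB'O hbB)
      have herase : (K ∪ B').erase b = K ∪ B'.erase b := by
        rw [Finset.erase_union_distrib, Finset.erase_eq_of_notMem hbK]
      refine ⟨B'.erase b, (Finset.erase_subset _ _).trans hB'O, ?_, ?_⟩
      · rw [Finset.card_erase_of_mem hbB]
        have h6 : 0 < B'.card := Finset.card_pos.2 ⟨b, hbB⟩
        omega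
      · rw [← herase, Nat.mul_succ]; omega
  have hI : eew w K O ≤ cst * O.card := by
    obtain ⟨B', hB'O, hcard, hcut⟩ := hpeel O.card le_rfl
    have hB'e : B' = ∅ := Finset.card_eq_zero.1 (by omega)
    rw [hB'e, Finset.union_empty] at hcut
    unfold cutw at hcut
    rw [hPK] at hcut
    exact hcut
  -- (II) the class itself
  have hII : ∀ a ∈ A, dgw w a K ≤ dgw w a O + cst := by
    intro a ha
    have h1 := vertex_Dw P w cst hself hvert a (hA ha) K hKP
      ⟨vA a, fun q hq hqa => hKpos a ha q hq hqa⟩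
    rw [hPK] at h1
    exact h1
  have hIIsum : eew w A K ≤ eew w A O + cst * A.card := by
    unfold eew
    calc ∑ a ∈ A, dgw w a K ≤ ∑ a ∈ A, (dgw w a O + cst) := Finset.sum_le_sum hII
      _ = ∑ a ∈ A, dgw w a O + cst * A.card := by
        rw [Finset.sum_add_distrib, Finset.sum_const, smul_eq_mul, Nat.mul_comm]
  -- (III)
  have hsplit : eew w A P = eew w A K + eew w A O := by
    have h0 : eew w A P = eew w A (K ∪ O) := by rw [hKO]
    rw [h0, eew_union_right w A hdKO]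
  have hle1 : eew w A O ≤ eew w K O := eew_mono_left w O hAK
  have hOcard : O.card + A.card ≤ P.card := by
    have h7 := Finset.card_le_card hOA
    have h8 : (P \ A).card + A.card = P.card := Finset.card_sdiff_add_card_eq_card hA
    omega
  have h9 : cst * O.card + cst * A.card ≤ cst * P.card := by
    rw [← Nat.mul_add]
    exact Nat.mul_le_mul_left _ hOcard
  omega

/-- **Convex cover bound for a weight.** -/
theorem cover_w (P : Finset (ℝ × ℝ)) (w : ℝ × ℝ → ℝ × ℝ → ℕ) (cst : ℕ)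
    (hsymm : ∀ p q, w p q = w q p) (hself : ∀ p, w p p = 0)
    (hvert : ∀ b ∈ P, ∀ v : ℝ × ℝ, (∀ q ∈ P, q ≠ b → xc b v q ≠ 0) →
      ∑ q ∈ P.filter (fun q => 0 < xc b v q), w b q ≤
        ∑ q ∈ P.filter (fun q => xc b v q < 0), w b q + cst)
    (κ : ℕ) (c : ℝ × ℝ → ℕ) (hc : ∀ p ∈ P, c p < κ)
    (hconv : ∀ b ∈ P, ∃ v : ℝ × ℝ, ∀ q ∈ P, q ≠ b → c q = c b → 0 < xc b v q) :
    eew w P P + cst * P.card ≤ κ * (2 * (cst * P.card)) := by
  have hclass : ∀ i ∈ Finset.range κ,
      eew w (P.filter (fun p => c p = i)) P + cst * (P.filter (fun p => c p = i)).card ≤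
        2 * (cst * P.card) := by
    intro i _
    have hA : P.filter (fun p => c p = i) ⊆ P := Finset.filter_subset _ _
    have hex : ∀ a ∈ P.filter (fun p => c p = i), ∃ v' : ℝ × ℝ,
        (∀ q ∈ P, q ≠ a → xc a v' q ≠ 0) ∧
        (∀ q ∈ P, q ≠ a → q ∈ P.filter (fun p => c p = i) → 0 < xc a v' q) := by
      intro a ha
      obtain ⟨haP, hai⟩ := Finset.mem_filter.1 ha
      obtain ⟨v, hv⟩ := hconv a haP
      exact perturb P a v (fun q => q ∈ P.filter (fun p => c p = i))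
        (fun q hq hqa hqA => hv q hq hqa (by rw [(Finset.mem_filter.1 hqA).2, hai]))
    choose! vA hvA using hex
    exact class_bound_w P w cst hsymm hself hvert _ hA vA (fun a ha => (hvA a ha).1)
      (fun a ha q hq hqa => (hvA a ha).2 q (hA hq) hqa hq)
  have hsum := Finset.sum_le_sum hclass
  rw [Finset.sum_add_distrib] at hsum
  have h1 : ∑ i ∈ Finset.range κ, eew w (P.filter (fun p => c p = i)) P = eew w P P := by
    unfold eew
    exact Finset.sum_fiberwise_of_maps_to (fun p hp => Finset.mem_range.2 (hc p hp)) _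
  have h2 : ∑ i ∈ Finset.range κ, cst * (P.filter (fun p => c p = i)).card = cst * P.card := by
    rw [← Finset.mul_sum]
    congr 1
    exact (Finset.card_eq_sum_card_fiberwise (fun p hp => Finset.mem_range.2 (hc p hp))).symm
  rw [h1, h2] at hsum
  simpa only [Finset.sum_const, Finset.card_range, smul_eq_mul] using hsum

end Vale.Agent.Lib.P065.H19W
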