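import Mathlib
import Vale.Agent.Lib.P065.Defs
import Vale.Agent.Lib.P065.KDefs
import Vale.Agent.Lib.P065.KEdge
import Vale.Agent.Lib.P065.helper47.KSetInj
import Vale.Agent.Lib.P065.helper19.CoverW

/-!
# The convex cover bound for directed `k`-edges and `k`-sets (helper19)

Instance of `H19W.cover_w` for the weight that counts the directed `k`-edges between two points
(vertex property with constant `2`, from `vertex_diff` of `KEdge.lean`).
-/

namespace Vale.Agent.Lib.P065.H19K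

open scoped Classical
open Finset
open Vale.Agent.Lib.P065

/-- The number of directed `k`-edges among `(p, q)` and `(q, p)`. -/
noncomputable def wk (P : Finset (ℝ × ℝ)) (k : ℕ) (p q : ℝ × ℝ) : ℕ :=
  (if IsKEdge P k p q then 1 else 0) + (if IsKEdge P k q p then 1 else 0)

theorem wk_symm (P : Finset (ℝ × ℝ)) (k : ℕ) (p q : ℝ × ℝ) : wk P k p q = wk P k q p := by
  unfold wk
  exact Nat.add_comm _ _

theorem wk_self (P : Finset (ℝ × ℝ)) (k : ℕ) (p : ℝ × ℝ) : wk P k p p = 0 := by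
  unfold wk
  have h : ¬ IsKEdge P k p p := fun h => h.1 rfl
  simp [h]

/-- Outgoing `k`-edges on the positive side versus incoming `k`-edges on the negative side. -/
theorem kout_gen (P : Finset (ℝ × ℝ)) (hP : GenPos P) (k : ℕ) (b v : ℝ × ℝ) (hb : b ∈ P)
    (hgen : ∀ q ∈ P, q ≠ b → xc b v q ≠ 0) :
    (P.filter (fun q => 0 < xc b v q ∧ IsKEdge P k b q)).card ≤
      (P.filter (fun q => xc b v q < 0 ∧ IsKEdge P k q b)).card + 1 := by
  have h1 : (P.filter (fun q => 0 < xc b v q ∧ IsKEdge P k b q)) ⊆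
      (P.filter (fun q => q ≠ b ∧ 0 < xc b v q ∧
        ((P.filter (fun r => 0 < cr b q r)).card : ℤ) -
          (P.filter (fun r => cr b q r < 0)).card = 2 * (k : ℤ) + 2 - P.card)) := by
    intro q hq
    obtain ⟨hqP, hqx, hqH⟩ := Finset.mem_filter.1 hq
    have hqb : q ≠ b := Ne.symm hqH.1
    exact Finset.mem_filter.2 ⟨hqP, hqb, hqx, (kedge_out_iff P hP k b q hb hqP hqb).1 hqH⟩
  have h2 : (P.filter (fun q => q ≠ b ∧ xc b v q < 0 ∧
        ((P.filter (fun r => 0 < cr b q r)).card : ℤ) -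
          (P.filter (fun r => cr b q r < 0)).card = -(2 * (k : ℤ) + 2 - P.card))) ⊆
      (P.filter (fun q => xc b v q < 0 ∧ IsKEdge P k q b)) := by
    intro q hq
    obtain ⟨hqP, hqb, hqx, hqm⟩ := Finset.mem_filter.1 hq
    exact Finset.mem_filter.2 ⟨hqP, hqx, (kedge_in_iff P hP k b q hb hqP hqb).2 (by omega)⟩
  calc _ ≤ _ := Finset.card_le_card h1
    _ ≤ _ := vertex_diff P hP b v hb hgen _
    _ ≤ _ := Nat.add_le_add_right (Finset.card_le_card h2) 1

/-- Incoming `k`-edges on the positive side versus outgoing `k`-edges on the negative side. -/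
theorem kin_gen (P : Finset (ℝ × ℝ)) (hP : GenPos P) (k : ℕ) (b v : ℝ × ℝ) (hb : b ∈ P)
    (hgen : ∀ q ∈ P, q ≠ b → xc b v q ≠ 0) :
    (P.filter (fun q => 0 < xc b v q ∧ IsKEdge P k q b)).card ≤
      (P.filter (fun q => xc b v q < 0 ∧ IsKEdge P k b q)).card + 1 := by
  have h1 : (P.filter (fun q => 0 < xc b v q ∧ IsKEdge P k q b)) ⊆
      (P.filter (fun q => q ≠ b ∧ 0 < xc b v q ∧
        ((P.filter (fun r => 0 < cr b q r)).card : ℤ) -
          (P.filter (fun r => cr b q r < 0)).card = (P.card : ℤ) - 2 - 2 * (k : ℤ))) := by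
    intro q hq
    obtain ⟨hqP, hqx, hqH⟩ := Finset.mem_filter.1 hq
    have hqb : q ≠ b := hqH.1
    exact Finset.mem_filter.2 ⟨hqP, hqb, hqx, (kedge_in_iff P hP k b q hb hqP hqb).1 hqH⟩
  have h2 : (P.filter (fun q => q ≠ b ∧ xc b v q < 0 ∧
        ((P.filter (fun r => 0 < cr b q r)).card : ℤ) -
          (P.filter (fun r => cr b q r < 0)).card = -((P.card : ℤ) - 2 - 2 * (k : ℤ)))) ⊆
      (P.filter (fun q => xc b v q < 0 ∧ IsKEdge P k b q)) := by
    intro q hq
    obtain ⟨hqP, hqb, hqx, hqm⟩ := Finset.mem_filter.1 hq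
    exact Finset.mem_filter.2 ⟨hqP, hqx, (kedge_out_iff P hP k b q hb hqP hqb).2 (by omega)⟩
  calc _ ≤ _ := Finset.card_le_card h1
    _ ≤ _ := vertex_diff P hP b v hb hgen _
    _ ≤ _ := Nat.add_le_add_right (Finset.card_le_card h2) 1

theorem sum_wk (P : Finset (ℝ × ℝ)) (k : ℕ) (b : ℝ × ℝ) (s : Finset (ℝ × ℝ)) :
    ∑ q ∈ s, wk P k b q = (s.filter (fun q => IsKEdge P k b q)).card +
      (s.filter (fun q => IsKEdge P k q b)).card := by
  unfold wk
  rw [Finset.sum_add_distrib, Finset.card_filter, Finset.card_filter]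

/-- The vertex property of the `k`-edge weight, with constant `2`. -/
theorem wk_vert (P : Finset (ℝ × ℝ)) (hP : GenPos P) (k : ℕ) :
    ∀ b ∈ P, ∀ v : ℝ × ℝ, (∀ q ∈ P, q ≠ b → xc b v q ≠ 0) →
      ∑ q ∈ P.filter (fun q => 0 < xc b v q), wk P k b q ≤
        ∑ q ∈ P.filter (fun q => xc b v q < 0), wk P k b q + 2 := by
  intro b hb v hgen
  rw [sum_wk, sum_wk, Finset.filter_filter, Finset.filter_filter, Finset.filter_filter,
    Finset.filter_filter]
  have h1 := kout_gen P hP k b v hb hgen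
  have h2 := kin_gen P hP k b v hb hgen
  omega

theorem eew_wk (P : Finset (ℝ × ℝ)) (k : ℕ) :
    H19W.eew (wk P k) P P =
      2 * ((P ×ˢ P).filter (fun pq => IsKEdge P k pq.1 pq.2)).card := by
  have h1 : ∑ p ∈ P, ∑ q ∈ P, (if IsKEdge P k p q then 1 else 0) =
      ((P ×ˢ P).filter (fun pq => IsKEdge P k pq.1 pq.2)).card := by
    rw [Finset.card_filter, Finset.sum_product]
  have h2 : ∑ p ∈ P, ∑ q ∈ P, (if IsKEdge P k q p then 1 else 0) =
      ((P ×ˢ P).filter (fun pq => IsKEdge P k pq.1 pq.2)).card := by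
    rw [Finset.sum_comm]; exact h1
  unfold H19W.eew H19W.dgw wk
  simp only [Finset.sum_add_distrib]
  rw [h1, h2]
  ring

/-- **Convex cover bound for directed `k`-edges.** -/
theorem kedge_cover (P : Finset (ℝ × ℝ)) (hP : GenPos P) (k κ : ℕ) (c : ℝ × ℝ → ℕ)
    (hc : ∀ p ∈ P, c p < κ)
    (hconv : ∀ b ∈ P, ∃ v : ℝ × ℝ, ∀ q ∈ P, q ≠ b → c q = c b → 0 < xc b v q) :
    (P.offDiag.filter (fun pq => IsKEdge P k pq.1 pq.2)).card + P.card ≤ 2 * κ * P.card := by
  have h := H19W.cover_w P (wk P k) 2 (wk_symm P k) (wk_self P k) (wk_vert P hP k) κ c hc hconv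
  rw [eew_wk] at h
  have hsub : (P.offDiag.filter (fun pq => IsKEdge P k pq.1 pq.2)).card ≤
      ((P ×ˢ P).filter (fun pq => IsKEdge P k pq.1 pq.2)).card := by
    refine Finset.card_le_card (Finset.filter_subset_filter _ ?_)
    intro pq hpq
    obtain ⟨hp, hq, _⟩ := Finset.mem_offDiag.1 hpq
    exact Finset.mem_product.2 ⟨hp, hq⟩
  have h5 : κ * (2 * (2 * P.card)) = 2 * (2 * κ * P.card) := by ring
  omega

/-- **Convex cover bound for `k`-sets.** -/
theorem kset_cover (P : Finset (ℝ × ℝ)) (hP : GenPos P) (κ : ℕ) (c : ℝ × ℝ → ℕ)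
    (hc : ∀ p ∈ P, c p < κ)
    (hconv : ∀ b ∈ P, ∃ v : ℝ × ℝ, ∀ q ∈ P, q ≠ b → c q = c b → 0 < xc b v q)
    (k : ℕ) (hk1 : 1 ≤ k) (hk2 : k < P.card) :
    (kSets P k).card + P.card ≤ 2 * κ * P.card := by
  have h0 := H47.card_kSets_le P hP k hk1 hk2
  have h1 := kedge_cover P hP (k - 1) κ c hc hconv
  omega

end Vale.Agent.Lib.P065.H19K
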